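import Vale.Agent.P321.Semantics
import Vale.Agent.P321.BaseSlip
import Vale.Agent.P321.BasePair

/-!
The sample complexity of worst-case trace reconstruction grows faster than every polynomial.
-/

open Vale.Agent.P321

theorem Vale.Agent.Results.P321.Superpolynomial.result :
    ∀ q : ℝ, 0 < q → q < 1 → ∀ C : ℕ, ∃ N : ℕ, ∀ n ≥ N, ∀ m ≤ n ^ C,
      ∀ E : (Fin m → List Bool) → (Fin n → Bool) → ℝ,
        (∀ s, (∀ z, 0 ≤ E s z) ∧ ∑ z, E s z = 1) → ∃ x, succProb q E x < 2 / 3 :=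
  superpoly_of_pairs fun _ h0 h1 => close_pairs h0 h1 (good_base h0 h1 (base_slip h0 h1))
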